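import Vale.Agent.P093U41.Main

/-!
# P093: the Phillips-Toms conjecture for the crossed product `C(X) ⋊_h ℤ` itself
-/

open Filter Topology TopologicalSpace Vale.Agent.P093 Vale.Agent.P093U
open scoped ENNReal

namespace Vale.Agent.Results.P093.AAUniversal

universe u v

/-- **The Phillips-Toms conjecture** `rc(C(X) ⋊ ℤ) = mdim(X, h) / 2`, for the crossed product given
as the reduced crossed product on `ℓ²(ℤ × X)`, which is shown to be the full one. -/
theorem result (X : Type u) [TopologicalSpace X] [CompactSpace X] [MetrizableSpace X] [Infinite X]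
    (h : X ≃ₜ X) (hmin : IsMinimalHomeo h) :
    -- (1) the conjecture, for the reduced crossed product
    rc (Reduced h) = mdimLim h / 2 ∧
    -- (2) it is the full crossed product and has a tracial state
    (∃ (π : C(X, ℂ) →⋆ₐ[ℂ] Reduced h) (u : Reduced h), IsRegular h π u ∧
      IsUniversal.{u, u, u} h π u ∧ IsUniversal.{u, u, v} h π u) ∧
    Nonempty (TracialState (Reduced h)) ∧
    -- (3) the conjecture, for every full crossed product
    (∀ (A : Type u) [CStarAlgebra A] (π : C(X, ℂ) →⋆ₐ[ℂ] A) (u : A), IsUniversal.{u, u, u} h π u →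
      Iso A (Reduced h) ∧ rc A = mdimLim h / 2) ∧
    -- (4) the description by faithful generators
    (∀ (A : Type v) [CStarAlgebra A], (IsCrossedProduct h A ↔ Iso A (Reduced h)) ∧
      (IsCrossedProduct h A → rc A = mdimLim h / 2)) ∧
    -- (5) the limits in the mean dimension exist and are finite
    (∀ 𝒰 : Set (Set X), IsFinOpenCover 𝒰 →
      Tendsto (fun N : ℕ => (coverDim (iterCover h 𝒰 N) : ℝ≥0∞) / N) atTop (𝓝 (rateLim h 𝒰)) ∧
        rateLim h 𝒰 ≠ ∞) ∧
    -- (6) the limits `d_τ(a)` exist and are well defined on `M_∞(A)`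
    ∀ (A : Type u) [CStarAlgebra A] [PartialOrder A] [StarOrderedRing A] (τ : TracialState A)
      (n : ℕ) (a : CStarMatrix (Fin n) (Fin n) A), 0 ≤ a →
      Tendsto (rootTrace τ a) atTop (𝓝 (dTau τ a)) ∧
        ∀ q, n ≤ q → 0 ≤ corner q a ∧ dTau τ (corner q a) = dTau τ a :=
  ⟨rc_crossed hmin (crossed_R h), exists_R h, trace_crossed hmin (crossed_R h),
    fun _ _ _ _ c => (equiv_of_universal c).elim fun e =>
      ⟨⟨e⟩, rc_crossed hmin (crossed_of_equiv e)⟩,
    fun _ _ => ⟨⟨equiv_of_crossed hmin, fun e => e.elim crossed_of_equiv⟩, rc_crossed hmin⟩,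
    fun _ hW => tendsto_rate h hW,
    fun _ _ _ _ τ _ _ ha => ⟨P093Z.tendsto_dTau' τ ha,
      fun _ hq => ⟨corner_nonneg hq ha, dTau_corner hq τ ha⟩⟩⟩

end Vale.Agent.Results.P093.AAUniversal
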